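import Mathlib

/-! Seymour's second neighbourhood conjecture (unweighted, arc-minimal counterexample, inner and
outer cuts). `R a b` : `b` is in the closed out-neighbourhood of `a`. (helper124) -/

set_option autoImplicit false

noncomputable section

namespace Vale.Agent.P038.H124

open Finset Classical

universe u

variable {V : Type u} [Fintype V]

/-- closed out-neighbourhood of a set -/
def N (R : V → V → Prop) (X : Finset V) : Finset V := univ.filter fun z => ∃ x ∈ X, R x z

theorem mem_N {R : V → V → Prop} {X : Finset V} {z : V} : z ∈ N R X ↔ ∃ x ∈ X, R x z := by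
  simp [N]

theorem mem_N1 {R : V → V → Prop} {a z : V} : z ∈ N R {a} ↔ R a z := by simp [N]

theorem N_mono {R : V → V → Prop} {X Y : Finset V} (h : X ⊆ Y) : N R X ⊆ N R Y := by
  intro z hz
  obtain ⟨x, hx, hxz⟩ := mem_N.1 hz
  exact mem_N.2 ⟨x, h hx, hxz⟩

theorem N_union (R : V → V → Prop) (X Y : Finset V) : N R (X ∪ Y) = N R X ∪ N R Y := by
  ext z
  simp only [mem_N, mem_union]
  constructor
  · rintro ⟨x, hx | hx, h⟩
    · exact Or.inl ⟨x, hx, h⟩
    · exact Or.inr ⟨x, hx, h⟩
  · rintro (⟨x, hx, h⟩ | ⟨x, hx, h⟩)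
    · exact ⟨x, Or.inl hx, h⟩
    · exact ⟨x, Or.inr hx, h⟩

theorem subset_N {R : V → V → Prop} (hR : ∀ a, R a a) (X : Finset V) : X ⊆ N R X :=
  fun x hx => mem_N.2 ⟨x, hx, hR x⟩

/-- counterexamples: `|N₂(v)| < |N⁺(v)|` for all `v` -/
def CE (R : V → V → Prop) : Prop := ∀ v, (N R (N R {v})).card + 1 < 2 * (N R {v}).card

/-- **(G)** for arc-minimal counterexamples -/
theorem G_strict {R : V → V → Prop} (hR : ∀ a, R a a) (hCE : CE R)
    (hmin : ∀ R' : V → V → Prop, (∀ a, R' a a) → (∀ a b, R' a b → R a b) → CE R' →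
      ∀ a b, R a b → R' a b) (X : Finset V) (hX : (N R X \ X).Nonempty) :
    (N R (N R X) \ N R X).card < (N R X \ X).card := by
  by_contra hcon
  rw [not_lt] at hcon
  set L := N R X \ X with hL
  set d : Finset V → ℤ := fun T => ((N R T \ X).card : ℤ) - 2 * T.card with hd
  have hdL : 0 ≤ d L := by
    have h1 : (N R (N R X) \ N R X) ∪ L ⊆ N R L \ X := by
      intro z hz
      rcases mem_union.1 hz with hz | hz
      · obtain ⟨hz1, hz2⟩ := mem_sdiff.1 hz
        obtain ⟨x, hx, hxz⟩ := mem_N.1 hz1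
        refine mem_sdiff.2 ⟨mem_N.2 ⟨x, mem_sdiff.2 ⟨hx, fun hxX => ?_⟩, hxz⟩,
          fun hzX => hz2 (subset_N hR X hzX)⟩
        exact hz2 (mem_N.2 ⟨x, hxX, hxz⟩)
      · exact mem_sdiff.2 ⟨subset_N hR L hz, (mem_sdiff.1 hz).2⟩
    have h2 : Disjoint (N R (N R X) \ N R X) L := by
      rw [disjoint_left]
      intro z hz hz'
      exact (mem_sdiff.1 hz).2 (mem_sdiff.1 hz').1
    have h3 := card_le_card h1
    rw [card_union_of_disjoint h2] at h3
    simp only [hd]
    have : (2 * L.card : ℤ) ≤ (N R L \ X).card := by exact_mod_cast (by omega)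
    linarith
  obtain ⟨T, hT, hTmin⟩ := exists_min_image L.ssubsets d ⟨∅, mem_ssubsets.2
    (empty_ssubset.2 hX)⟩
  have hTL : T ⊂ L := mem_ssubsets.1 hT
  have hT0 : d T ≤ 0 := by
    have := hTmin ∅ (mem_ssubsets.2 (empty_ssubset.2 hX))
    refine this.trans (le_of_eq ?_)
    simp [hd, N]
  have hHall : ∀ D : Finset V, D ⊆ L \ T → 2 * D.card ≤ (N R D \ (N R T ∪ X)).card := by
    intro D hD
    have hdisj : Disjoint T D := by
      rw [disjoint_left]
      intro z hz hz'
      exact (mem_sdiff.1 (hD hz')).2 hz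
    have hsub : T ∪ D ⊆ L := union_subset hTL.1 (hD.trans sdiff_subset)
    have h1 : d T ≤ d (T ∪ D) := by
      by_cases h2 : T ∪ D = L
      · rw [h2]
        exact hT0.trans hdL
      · exact hTmin _ (mem_ssubsets.2 (hsub.ssubset_of_ne h2))
    have h3 : N R (T ∪ D) \ X ⊆ (N R T \ X) ∪ (N R D \ (N R T ∪ X)) := by
      intro z hz
      obtain ⟨hz1, hz2⟩ := mem_sdiff.1 hz
      rw [N_union] at hz1
      by_cases h4 : z ∈ N R T
      · exact mem_union_left _ (mem_sdiff.2 ⟨h4, hz2⟩)
      · refine mem_union_right _ (mem_sdiff.2 ⟨(mem_union.1 hz1).resolve_left h4, fun h5 => ?_⟩)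
        rcases mem_union.1 h5 with h5 | h5
        · exact h4 h5
        · exact hz2 h5
    have h4 := (card_le_card h3).trans (card_union_le _ _)
    simp only [hd] at h1
    rw [card_union_of_disjoint hdisj] at h1
    push_cast at h1
    have h5 : ((N R (T ∪ D) \ X).card : ℤ) ≤ (N R T \ X).card + (N R D \ (N R T ∪ X)).card := by
      exact_mod_cast h4
    have h6 : (2 * D.card : ℤ) ≤ (N R D \ (N R T ∪ X)).card := by linarith
    exact_mod_cast h6
  -- the smaller graph
  set R' : V → V → Prop := fun a b => R a b ∧ (a ∈ X → b ∈ X ∪ T) with hR'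
  have hle : ∀ a b, R' a b → R a b := fun a b h => h.1
  have hNle : ∀ Y : Finset V, N R' Y ⊆ N R Y := by
    intro Y z hz
    obtain ⟨x, hx, hxz⟩ := mem_N.1 hz
    exact mem_N.2 ⟨x, hx, hle _ _ hxz⟩
  have hCE' : CE R' := by
    intro v
    by_cases hv : v ∈ X
    · set D := N R {v} \ (X ∪ T) with hD
      have hDL : D ⊆ L \ T := by
        intro z hz
        obtain ⟨hz1, hz2⟩ := mem_sdiff.1 hz
        rw [mem_N1] at hz1
        exact mem_sdiff.2 ⟨mem_sdiff.2 ⟨mem_N.2 ⟨v, hv, hz1⟩, fun h => hz2 (mem_union_left _ h)⟩,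
          fun h => hz2 (mem_union_right _ h)⟩
      have h1 := hHall D hDL
      have h2 : N R' {v} = N R {v} \ D := by
        ext z
        simp only [mem_N1, mem_sdiff, hD, hR']
        constructor
        · rintro ⟨h3, h4⟩
          exact ⟨h3, fun h5 => h5.2 (h4 hv)⟩
        · rintro ⟨h3, h4⟩
          refine ⟨h3, fun _ => ?_⟩
          by_contra h5
          exact h4 ⟨h3, h5⟩
      have h3 : (N R' {v}).card + D.card = (N R {v}).card := by
        rw [h2]
        exact card_sdiff_add_card_eq_card (sdiff_subset)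
      have h4 : N R' (N R' {v}) ⊆ N R T ∪ X := by
        intro z hz
        obtain ⟨c, hc, hcz⟩ := mem_N.1 hz
        rw [mem_N1] at hc
        rcases mem_union.1 (hc.2 hv) with h5 | h5
        · rcases mem_union.1 (hcz.2 h5) with h6 | h6
          · exact mem_union_right _ h6
          · exact mem_union_left _ (subset_N hR T h6)
        · exact mem_union_left _ (mem_N.2 ⟨c, h5, hcz.1⟩)
      have h5 : N R' (N R' {v}) ∪ (N R D \ (N R T ∪ X)) ⊆ N R (N R {v}) := by
        refine union_subset ((hNle _).trans (N_mono (hNle _))) ?_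
        exact sdiff_subset.trans (N_mono sdiff_subset)
      have h6 : Disjoint (N R' (N R' {v})) (N R D \ (N R T ∪ X)) := by
        rw [disjoint_left]
        intro z hz hz'
        exact (mem_sdiff.1 hz').2 (h4 hz)
      have h7 := card_le_card h5
      rw [card_union_of_disjoint h6] at h7
      have h8 := hCE v
      omega
    · have h1 : N R' {v} = N R {v} := by
        ext z
        simp only [mem_N1, hR']
        exact ⟨fun h => h.1, fun h => ⟨h, fun h2 => absurd h2 hv⟩⟩
      rw [h1]
      have h2 := card_le_card (hNle (N R {v}))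
      have h3 := hCE v
      omega
  have hfin := hmin R' (fun a => ⟨hR a, fun h => mem_union_left _ h⟩) hle hCE'
  obtain ⟨z, hz, hzT⟩ := exists_of_ssubset hTL
  obtain ⟨hz1, hz2⟩ := mem_sdiff.1 hz
  obtain ⟨x, hx, hxz⟩ := mem_N.1 hz1
  rcases mem_union.1 ((hfin x z hxz).2 hx) with h | h
  · exact hz2 h
  · exact hzT h

/-! ### the two cut problems -/

/-- `|N[Y]| - |Y|` -/
def h (R : V → V → Prop) (Y : Finset V) : ℤ := ((N R Y).card : ℤ) - Y.card

theorem h_sub (R : V → V → Prop) (X Y : Finset V) : h R (X ∪ Y) + h R (X ∩ Y) ≤ h R X + h R Y := by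
  have h1 : N R (X ∩ Y) ⊆ N R X ∩ N R Y :=
    subset_inter (N_mono inter_subset_left) (N_mono inter_subset_right)
  have h2 := card_le_card h1
  have h3 := card_union_add_card_inter (N R X) (N R Y)
  have h4 := card_union_add_card_inter X Y
  unfold h
  rw [N_union]
  have h5 : ((N R X ∪ N R Y).card : ℤ) + (N R (X ∩ Y)).card ≤ (N R X).card + (N R Y).card := by
    exact_mod_cast (by omega)
  have h6 : ((X ∪ Y).card : ℤ) + (X ∩ Y).card = X.card + Y.card := by exact_mod_cast h4
  linarith

/-- intersection of the rows of the in-neighbours -/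
def M (R : V → V → Prop) (U : V → Finset V) (z : V) : Finset V :=
  univ.filter fun x => ∀ a, R a z → x ∈ U a

theorem mem_M {R : V → V → Prop} {U : V → Finset V} {z x : V} :
    x ∈ M R U z ↔ ∀ a, R a z → x ∈ U a := by simp [M]

/-- minimum of `h` over an interval -/
def k (R : V → V → Prop) (P Q W : Finset V) : ℤ :=
  sInf (h R '' {Y : Finset V | P ∪ W ∩ Q ⊆ Y ∧ Y ⊆ Q})

theorem k_le {R : V → V → Prop} {P Q W Y : Finset V} (h1 : P ∪ W ∩ Q ⊆ Y) (h2 : Y ⊆ Q) :
    k R P Q W ≤ h R Y :=
  csInf_le (Set.toFinite _).bddBelow ⟨Y, ⟨h1, h2⟩, rfl⟩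

theorem k_mem {R : V → V → Prop} {P Q : Finset V} (W : Finset V) (hPQ : P ⊆ Q) :
    ∃ Y, P ∪ W ∩ Q ⊆ Y ∧ Y ⊆ Q ∧ h R Y = k R P Q W := by
  obtain ⟨Y, ⟨h1, h2⟩, h3⟩ := Int.csInf_mem (s := h R '' {Y : Finset V | P ∪ W ∩ Q ⊆ Y ∧ Y ⊆ Q})
    ⟨_, Q, ⟨union_subset hPQ inter_subset_right, Subset.rfl⟩, rfl⟩ (Set.toFinite _).bddBelow
  exact ⟨Y, h1, h2, h3⟩

theorem k_univ {R : V → V → Prop} {P Q : Finset V} (hPQ : P ⊆ Q) : k R P Q univ = h R Q := by
  obtain ⟨Y, h1, h2, h3⟩ := k_mem (R := R) univ hPQ
  rw [← h3]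
  congr 1
  refine Subset.antisymm h2 ?_
  refine Subset.trans ?_ h1
  rw [univ_inter]
  exact subset_union_right

theorem k_empty {R : V → V → Prop} {P Q : Finset V} (hPQ : P ⊆ Q)
    (hmin : ∀ Y, P ⊆ Y → Y ⊆ Q → h R P ≤ h R Y) : k R P Q ∅ = h R P := by
  obtain ⟨Y, h1, h2, h3⟩ := k_mem (R := R) ∅ hPQ
  refine le_antisymm (k_le (by simp) hPQ) ?_
  rw [← h3]
  exact hmin Y (subset_union_left.trans h1) h2

theorem k_insert_le {R : V → V → Prop} {P Q : Finset V} (hPQ : P ⊆ Q) (b : V) (W : Finset V) :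
    k R P Q W ≤ k R P Q (insert b W) := by
  obtain ⟨Y, h1, h2, h3⟩ := k_mem (R := R) (insert b W) hPQ
  rw [← h3]
  refine k_le (Subset.trans ?_ h1) h2
  exact union_subset_union Subset.rfl (inter_subset_inter (subset_insert b W) Subset.rfl)

theorem k_insert_eq {R : V → V → Prop} {P Q : Finset V} (b : V) (W : Finset V)
    (hb : ¬ (b ∈ Q ∧ b ∉ P)) : k R P Q (insert b W) = k R P Q W := by
  have h1 : P ∪ insert b W ∩ Q = P ∪ W ∩ Q := by
    ext z
    simp only [mem_union, mem_inter, mem_insert]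
    constructor
    · rintro (h2 | ⟨h2 | h2, h3⟩)
      · exact Or.inl h2
      · subst h2
        left
        by_contra h4
        exact hb ⟨h3, h4⟩
      · exact Or.inr ⟨h2, h3⟩
    · rintro (h2 | ⟨h2, h3⟩)
      · exact Or.inl h2
      · exact Or.inr ⟨Or.inr h2, h3⟩
  unfold k
  rw [h1]

/-- feasible pairs -/
def Feas (R : V → V → Prop) (p : (V → Finset V) × (V → Finset V)) : Prop :=
  (∀ a, N R {a} ⊆ p.1 a) ∧ (∀ a, p.1 a ⊆ p.2 a) ∧ ∀ a y, R y a → y ∈ p.2 a → y = a

/-- the cost of a feasible pair -/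
def cost (R : V → V → Prop) (p : (V → Finset V) × (V → Finset V)) : ℤ :=
  ∑ a, h R (p.1 a) + ∑ a, ((p.2 a).card : ℤ) - ∑ z, ((M R p.2 z).card : ℤ)

section Opt

variable {R : V → V → Prop} {B U : V → Finset V} (hF : Feas R (B, U))
  (hmin : ∀ p, Feas R p → cost R (B, U) ≤ cost R p)

include hF hmin

theorem row_opt (a : V) (Y : Finset V) (h1 : B a ⊆ Y) (h2 : Y ⊆ U a) : h R (B a) ≤ h R Y := by
  obtain ⟨f1, f2, f3⟩ := hF
  have h3 := hmin (Function.update B a Y, U) ⟨fun x => ?_, fun x => ?_, f3⟩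
  · simp only [cost] at h3
    have e1 := add_sum_erase univ (fun x => h R (B x)) (mem_univ a)
    have e2 := add_sum_erase univ (fun x => h R (Function.update B a Y x)) (mem_univ a)
    have e3 : ∑ x ∈ univ.erase a, h R (Function.update B a Y x) =
        ∑ x ∈ univ.erase a, h R (B x) := by
      refine sum_congr rfl fun x hx => ?_
      rw [Function.update_of_ne (ne_of_mem_erase hx)]
    simp only [Function.update_self] at e2
    linarith
  · by_cases hx : x = a
    · subst hx
      simp only [Function.update_self]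
      exact (f1 x).trans h1
    · simp only [Function.update_of_ne hx]
      exact f1 x
  · by_cases hx : x = a
    · subst hx
      simp only [Function.update_self]
      exact h2
    · simp only [Function.update_of_ne hx]
      exact f2 x

theorem col_opt (b : V) (S : Finset V) (hS : ∀ a ∈ S, b ∈ U a ∧ b ∉ B a) :
    S.card ≤ (univ.filter fun z => b ∈ M R U z ∧ ∃ a ∈ S, R a z).card := by
  obtain ⟨f1, f2, f3⟩ := hF
  set U' : V → Finset V := fun a => if a ∈ S then (U a).erase b else U a with hU'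
  have hU'U : ∀ a, U' a ⊆ U a := by
    intro a
    simp only [hU']
    split_ifs
    · exact erase_subset _ _
    · exact Subset.rfl
  have h3 := hmin (B, U') ⟨f1, fun a => ?_, fun a y hy hyU => f3 a y hy (hU'U a hyU)⟩
  · simp only [cost] at h3
    have e1 : ∑ a, ((U' a).card : ℤ) = ∑ a, ((U a).card : ℤ) - S.card := by
      have e2 : ∀ a, ((U' a).card : ℤ) = ((U a).card : ℤ) - if a ∈ S then 1 else 0 := by
        intro a
        simp only [hU']
        split_ifs with h4
        · have h5 := card_erase_add_one (hS a h4).1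
          have h6 : (((U a).erase b).card : ℤ) + 1 = (U a).card := by exact_mod_cast h5
          linarith
        · simp
      rw [sum_congr rfl fun a _ => e2 a, sum_sub_distrib]
      simp
    have e3 : ∑ z, ((M R U' z).card : ℤ) = ∑ z, ((M R U z).card : ℤ) -
        (univ.filter fun z => b ∈ M R U z ∧ ∃ a ∈ S, R a z).card := by
      have e4 : ∀ z, ((M R U' z).card : ℤ) = ((M R U z).card : ℤ) -
          if b ∈ M R U z ∧ ∃ a ∈ S, R a z then 1 else 0 := by
        intro z
        by_cases h4 : ∃ a ∈ S, R a z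
        · have h5 : M R U' z = (M R U z).erase b := by
            ext x
            rw [mem_M, mem_erase, mem_M]
            constructor
            · intro h6
              refine ⟨?_, fun a ha => hU'U a (h6 a ha)⟩
              rintro rfl
              obtain ⟨a, haS, haz⟩ := h4
              have h7 := h6 a haz
              simp only [hU', if_pos haS] at h7
              exact (mem_erase.1 h7).1 rfl
            · rintro ⟨h6, h7⟩ a ha
              simp only [hU']
              split_ifs
              · exact mem_erase.2 ⟨h6, h7 a ha⟩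
              · exact h7 a ha
          rw [h5]
          by_cases h6 : b ∈ M R U z
          · rw [if_pos ⟨h6, h4⟩]
            have h7 := card_erase_add_one h6
            have h8 : (((M R U z).erase b).card : ℤ) + 1 = (M R U z).card := by exact_mod_cast h7
            linarith
          · rw [if_neg fun h7 => h6 h7.1, erase_eq_of_notMem h6]
            simp
        · rw [if_neg fun h7 => h4 h7.2]
          have h5 : M R U' z = M R U z := by
            ext x
            rw [mem_M, mem_M]
            refine forall₂_congr fun a ha => ?_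
            have h6 : a ∉ S := fun h7 => h4 ⟨a, h7, ha⟩
            simp only [hU', if_neg h6]
          rw [h5]
          simp
      rw [sum_congr rfl fun z _ => e4 z, sum_sub_distrib]
      simp
    rw [e1, e3] at h3
    have h4 : (S.card : ℤ) ≤ (univ.filter fun z => b ∈ M R U z ∧ ∃ a ∈ S, R a z).card := by
      linarith
    exact_mod_cast h4
  · simp only [hU']
    split_ifs with h4
    · exact subset_erase.2 ⟨f2 a, (hS a h4).2⟩
    · exact f2 a

theorem m_opt (z : V) (Y : Finset V) (h1 : M R B z ⊆ Y) (h2 : Y ⊆ M R U z) :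
    h R (M R B z) ≤ h R Y := by
  have key : ∀ A : Finset V, (∀ a ∈ A, R a z) →
      h R (Y.filter fun x => ∀ a ∈ A, x ∈ B a) ≤ h R Y := by
    intro A
    induction A using Finset.induction_on with
    | empty =>
      intro _
      simp
    | insert a A ha ih =>
      intro hA
      have h3 := ih fun a' ha' => hA a' (mem_insert_of_mem ha')
      set Y' := Y.filter fun x => ∀ a ∈ A, x ∈ B a with hY'
      have h4 : (Y.filter fun x => ∀ a' ∈ insert a A, x ∈ B a') = Y' ∩ B a := by
        ext x
        simp only [hY', mem_filter, mem_inter, mem_insert]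
        constructor
        · rintro ⟨h5, h6⟩
          exact ⟨⟨h5, fun a' ha' => h6 a' (Or.inr ha')⟩, h6 a (Or.inl rfl)⟩
        · rintro ⟨⟨h5, h6⟩, h7⟩
          refine ⟨h5, ?_⟩
          rintro a' (rfl | ha')
          · exact h7
          · exact h6 a' ha'
      rw [h4]
      have h5 := h_sub R Y' (B a)
      have h6 := row_opt hF hmin a (Y' ∪ B a) subset_union_right (union_subset
        (fun x hx => mem_M.1 (h2 (mem_filter.1 hx).1) a (hA a (mem_insert_self a A)))
        (hF.2.1 a))
      linarith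
  have h3 := key (univ.filter fun a => R a z) fun a ha => (mem_filter.1 ha).2
  have h4 : (Y.filter fun x => ∀ a ∈ univ.filter (fun a => R a z), x ∈ B a) = M R B z := by
    ext x
    rw [mem_filter, mem_M]
    constructor
    · rintro ⟨-, h5⟩ a ha
      exact h5 a (mem_filter.2 ⟨mem_univ a, ha⟩)
    · intro h5
      exact ⟨h1 (mem_M.2 h5), fun a ha => h5 a (mem_filter.1 ha).2⟩
  rwa [h4] at h3

/-- **the gap inequality** -/
theorem gap : ∑ a, (h R (U a) - h R (B a)) ≤ ∑ z, (h R (M R U z) - h R (M R B z)) := by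
  have hmM : ∀ z, M R B z ⊆ M R U z := fun z x hx =>
    mem_M.2 fun a ha => hF.2.1 a (mem_M.1 hx a ha)
  have key : ∀ W : Finset V, ∑ a, (k R (B a) (U a) W - k R (B a) (U a) ∅) ≤
      ∑ z, (k R (M R B z) (M R U z) W - k R (M R B z) (M R U z) ∅) := by
    intro W
    induction W using Finset.induction_on with
    | empty => simp
    | insert b W hb ih =>
      -- one step
      set α : V → ℤ := fun a => k R (B a) (U a) (insert b W) - k R (B a) (U a) W with hα
      set γ : V → ℤ := fun z => k R (M R B z) (M R U z) (insert b W) -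
        k R (M R B z) (M R U z) W with hγ
      have hγ0 : ∀ z, 0 ≤ γ z := fun z => sub_nonneg.2 (k_insert_le (hmM z) b W)
      have hα0 : ∀ a, ¬ (b ∈ U a ∧ b ∉ B a) → α a = 0 := by
        intro a ha
        simp only [hα]
        rw [k_insert_eq b W ha, sub_self]
      have hαγ : ∀ a z, R a z → b ∈ M R U z → α a ≤ γ z := by
        intro a z haz hbz
        obtain ⟨Y, y1, y2, y3⟩ := k_mem (R := R) (insert b W) (hmM z)
        obtain ⟨Y', z1, z2, z3⟩ := k_mem (R := R) W (hF.2.1 a)
        have hYU : Y ⊆ U a := fun x hx => mem_M.1 (y2 hx) a haz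
        have hbY : b ∈ Y := y1 (mem_union_right _ (mem_inter.2 ⟨mem_insert_self b W, hbz⟩))
        have h1 : k R (B a) (U a) (insert b W) ≤ h R (Y ∪ Y') := by
          refine k_le ?_ (union_subset hYU z2)
          intro x hx
          rcases mem_union.1 hx with hx | hx
          · exact mem_union_right _ (z1 (mem_union_left _ hx))
          · obtain ⟨hx1, hx2⟩ := mem_inter.1 hx
            rcases mem_insert.1 hx1 with rfl | hx1
            · exact mem_union_left _ hbY
            · exact mem_union_right _ (z1 (mem_union_right _ (mem_inter.2 ⟨hx1, hx2⟩)))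
        have h2 : k R (M R B z) (M R U z) W ≤ h R (Y ∩ Y') := by
          refine k_le ?_ (inter_subset_left.trans y2)
          intro x hx
          rcases mem_union.1 hx with hx | hx
          · exact mem_inter.2 ⟨y1 (mem_union_left _ hx),
              z1 (mem_union_left _ (mem_M.1 hx a haz))⟩
          · obtain ⟨hx1, hx2⟩ := mem_inter.1 hx
            exact mem_inter.2 ⟨y1 (mem_union_right _ (mem_inter.2 ⟨mem_insert_of_mem hx1, hx2⟩)),
              z1 (mem_union_right _ (mem_inter.2 ⟨hx1, mem_M.1 hx2 a haz⟩))⟩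
        have h3 := h_sub R Y Y'
        simp only [hα, hγ]
        linarith
      -- Hall
      have hHall : ∃ φ : {a // b ∈ U a ∧ b ∉ B a} → V, Function.Injective φ ∧
          ∀ a, φ a ∈ univ.filter fun z => b ∈ M R U z ∧ R a.1 z := by
        refine (all_card_le_biUnion_card_iff_exists_injective _).1 fun s => ?_
        have h1 := col_opt hF hmin b (s.image Subtype.val) (fun a ha => by
          obtain ⟨a', -, rfl⟩ := mem_image.1 ha
          exact a'.2)
        rw [card_image_of_injective _ Subtype.val_injective] at h1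
        refine h1.trans (card_le_card ?_)
        intro z hz
        obtain ⟨-, hz1, a, ha, haz⟩ := mem_filter.1 hz
        obtain ⟨a', ha', rfl⟩ := mem_image.1 ha
        exact mem_biUnion.2 ⟨a', ha', mem_filter.2 ⟨mem_univ z, hz1, haz⟩⟩
      obtain ⟨φ, hφi, hφ⟩ := hHall
      have hstep : ∑ a, α a ≤ ∑ z, γ z := by
        calc ∑ a, α a = ∑ a ∈ univ.filter (fun a => b ∈ U a ∧ b ∉ B a), α a := by
              rw [sum_filter]
              refine sum_congr rfl fun a _ => ?_
              split_ifs with h1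
              · rfl
              · exact hα0 a h1
          _ = ∑ a : {a // b ∈ U a ∧ b ∉ B a}, α a.1 := by
              rw [← sum_subtype_eq_sum_filter]
              simp
          _ ≤ ∑ a : {a // b ∈ U a ∧ b ∉ B a}, γ (φ a) := by
              refine sum_le_sum fun a _ => ?_
              obtain ⟨-, h1, h2⟩ := mem_filter.1 (hφ a)
              exact hαγ a.1 (φ a) h2 h1
          _ = ∑ z ∈ univ.image φ, γ z := by
              rw [sum_image fun a _ a' _ haa => hφi haa]
          _ ≤ ∑ z, γ z := sum_le_sum_of_subset_of_nonneg (subset_univ _) fun z _ _ => hγ0 z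
      have e1 : ∑ a, (k R (B a) (U a) (insert b W) - k R (B a) (U a) ∅) =
          ∑ a, α a + ∑ a, (k R (B a) (U a) W - k R (B a) (U a) ∅) := by
        rw [← sum_add_distrib]
        refine sum_congr rfl fun a _ => ?_
        simp only [hα]
        ring
      have e2 : ∑ z, (k R (M R B z) (M R U z) (insert b W) - k R (M R B z) (M R U z) ∅) =
          ∑ z, γ z + ∑ z, (k R (M R B z) (M R U z) W - k R (M R B z) (M R U z) ∅) := by
        rw [← sum_add_distrib]
        refine sum_congr rfl fun z _ => ?_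
        simp only [hγ]
        ring
      rw [e1, e2]
      exact add_le_add hstep ih
  have h1 := key univ
  have e1 : ∀ a, k R (B a) (U a) univ - k R (B a) (U a) ∅ = h R (U a) - h R (B a) := by
    intro a
    rw [k_univ (hF.2.1 a), k_empty (hF.2.1 a) fun Y h2 h3 => row_opt hF hmin a Y h2 h3]
  have e2 : ∀ z, k R (M R B z) (M R U z) univ - k R (M R B z) (M R U z) ∅ =
      h R (M R U z) - h R (M R B z) := by
    intro z
    rw [k_univ (hmM z), k_empty (hmM z) fun Y h2 h3 => m_opt hF hmin z Y h2 h3]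
  rw [sum_congr rfl fun a _ => e1 a, sum_congr rfl fun z _ => e2 z] at h1
  exact h1

end Opt

/-! ### the candidate -/

/-- double counting -/
theorem swap {F G : V → Finset V} (hFG : ∀ a b, a ∉ F b ↔ b ∈ G a ∧ b ≠ a) (hG : ∀ a, a ∈ G a) :
    ∑ b, ((F b).card : ℤ) = (Fintype.card V : ℤ) * Fintype.card V + Fintype.card V -
      ∑ a, ((G a).card : ℤ) := by
  have e1 : ∀ S : Finset V, (S.card : ℤ) = ∑ x, if x ∈ S then (1 : ℤ) else 0 := by
    intro S
    simp
  have e2 : ∀ a b, (if a ∈ F b then (1 : ℤ) else 0) =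
      1 - (if b ∈ G a then 1 else 0) + if b = a then 1 else 0 := by
    intro a b
    by_cases h1 : b = a
    · subst h1
      have h2 : b ∈ F b := by
        by_contra h3
        exact ((hFG b b).1 h3).2 rfl
      simp [h2, hG b]
    · by_cases h2 : b ∈ G a
      · have h3 : a ∉ F b := (hFG a b).2 ⟨h2, h1⟩
        simp [h1, h2, h3]
      · have h3 : a ∈ F b := by
          by_contra h4
          exact h2 ((hFG a b).1 h4).1
        simp [h1, h2, h3]
  have e3 : ∑ b, ((F b).card : ℤ) = ∑ b, ∑ a, (if a ∈ F b then (1 : ℤ) else 0) :=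
    sum_congr rfl fun b _ => e1 (F b)
  have e4 : ∑ a, ((G a).card : ℤ) = ∑ a, ∑ b, (if b ∈ G a then (1 : ℤ) else 0) :=
    sum_congr rfl fun a _ => e1 (G a)
  rw [e3, e4, sum_comm]
  simp only [e2, sum_add_distrib, sum_sub_distrib]
  simp
  ring

/-- the new upper family -/
def Up (R : V → V → Prop) (U : V → Finset V) (a : V) : Finset V :=
  univ.filter fun b => (∀ z, R z a → b ∈ N R (U z)) ∧ (R b a → b = a)

theorem mem_Up {R : V → V → Prop} {U : V → Finset V} {a b : V} :
    b ∈ Up R U a ↔ (∀ z, R z a → b ∈ N R (U z)) ∧ (R b a → b = a) := by simp [Up]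

/-- the second family of the candidate -/
def Yf (R : V → V → Prop) (U : V → Finset V) (b : V) : Finset V :=
  univ.filter fun z => z = b ∨ b ∉ N R (U z)

theorem mem_Yf {R : V → V → Prop} {U : V → Finset V} {b z : V} :
    z ∈ Yf R U b ↔ z = b ∨ b ∉ N R (U z) := by simp [Yf]

/-- **no arc-minimal counterexample** -/
theorem no_min [Nonempty V] {R : V → V → Prop} (hR : ∀ a, R a a)
    (hA : ∀ a b, R a b → R b a → a = b) (hCE : CE R)
    (hmin : ∀ R' : V → V → Prop, (∀ a, R' a a) → (∀ a b, R' a b → R a b) → CE R' →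
      ∀ a b, R a b → R' a b) : False := by
  -- consequences of `(G)`
  have hh : ∀ X : Finset V, h R X = ((N R X \ X).card : ℤ) := by
    intro X
    have h1 := card_sdiff_add_card_eq_card (subset_N hR X)
    unfold h
    have h2 : ((N R X \ X).card : ℤ) + X.card = (N R X).card := by exact_mod_cast h1
    linarith
  have hG1 : ∀ X : Finset V, N R X ≠ X → h R (N R X) < h R X := by
    intro X hX
    rw [hh, hh]
    have h1 : (N R X \ X).Nonempty := by
      rw [sdiff_nonempty]
      exact fun h2 => hX (Subset.antisymm h2 (subset_N hR X))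
    exact_mod_cast G_strict hR hCE hmin X h1
  have hG2 : ∀ X : Finset V, h R (N R X) ≤ h R X := by
    intro X
    by_cases hX : N R X = X
    · rw [hX]
    · exact (hG1 X hX).le
  -- an optimal pair
  have hne : (univ.filter fun p : (V → Finset V) × (V → Finset V) => Feas R p).Nonempty := by
    refine ⟨(fun a => N R {a}, fun a => N R {a}), mem_filter.2 ⟨mem_univ _, fun a => Subset.rfl,
      fun a => Subset.rfl, fun a y h1 h2 => ?_⟩⟩
    exact hA y a h1 (mem_N1.1 h2)
  obtain ⟨⟨B, U⟩, hBU, hBUmin⟩ := exists_min_image _ (cost R) hne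
  have hF : Feas R (B, U) := (mem_filter.1 hBU).2
  have hopt : ∀ p, Feas R p → cost R (B, U) ≤ cost R p := fun p hp =>
    hBUmin p (mem_filter.2 ⟨mem_univ p, hp⟩)
  obtain ⟨f1, f2, f3⟩ := hF
  simp only at f1 f2 f3
  have hgap := gap ⟨f1, f2, f3⟩ hopt
  -- elementary facts
  have hBz : ∀ z a, R z a → a ∈ B z := fun z a hza => f1 z (mem_N1.2 hza)
  have ham : ∀ a, a ∈ M R B a := fun a => mem_M.2 fun z hz => hBz z a hz
  have hmM : ∀ z, M R B z ⊆ M R U z := fun z x hx => mem_M.2 fun a ha => f2 a (mem_M.1 hx a ha)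
  have hMU : ∀ z, M R U z ⊆ U z := fun z x hx => mem_M.1 hx z (hR z)
  have hNM : ∀ z, N R (M R U z) ⊆ Up R U z := by
    intro z b hb
    obtain ⟨y, hy, hyb⟩ := mem_N.1 hb
    refine mem_Up.2 ⟨fun z' hz' => mem_N.2 ⟨y, mem_M.1 hy z' hz', hyb⟩, fun hbz => ?_⟩
    have h1 : y = b := f3 b y hyb (mem_M.1 hy b hbz)
    subst h1
    exact f3 z y hbz (hMU z hy)
  have haU : ∀ a, a ∈ U a := fun a => f2 a (hBz a a (hR a))
  have haNU : ∀ z a, R z a → a ∈ N R (U z) := fun z a hza => mem_N.2 ⟨z, haU z, hza⟩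
  have haUp : ∀ a, a ∈ Up R U a := fun a => mem_Up.2 ⟨fun z hz => haNU z a hz, fun _ => rfl⟩
  have c1 : ∀ a b, a ∉ N R (Yf R U b) ↔ b ∈ Up R U a ∧ b ≠ a := by
    intro a b
    constructor
    · intro h1
      have h2 : ∀ z, R z a → z ≠ b ∧ b ∈ N R (U z) := by
        intro z hz
        by_contra h3
        apply h1
        refine mem_N.2 ⟨z, mem_Yf.2 ?_, hz⟩
        by_contra h4
        push Not at h4
        exact h3 h4
      refine ⟨mem_Up.2 ⟨fun z hz => (h2 z hz).2, fun hba => absurd rfl (h2 b hba).1⟩, ?_⟩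
      exact ((h2 a (hR a)).1).symm
    · rintro ⟨h1, h2⟩ h3
      obtain ⟨z, hz, hza⟩ := mem_N.1 h3
      rcases mem_Yf.1 hz with h4 | h4
      · subst h4
        exact h2 ((mem_Up.1 h1).2 hza)
      · exact h4 ((mem_Up.1 h1).1 z hza)
  have c2 : ∀ z b, z ∉ Yf R U b ↔ b ∈ N R (U z) ∧ b ≠ z := by
    intro z b
    rw [mem_Yf]
    push Not
    exact ⟨fun h1 => ⟨h1.2, h1.1.symm⟩, fun h1 => ⟨h1.2.symm, h1.1⟩⟩
  have c3 : ∀ a b, a ∉ N R (N R (Yf R U b)) ↔ b ∈ M R (Up R U) a ∧ b ≠ a := by
    intro a b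
    have h0 : a ∉ N R (N R (Yf R U b)) ↔ ∀ z, R z a → z ∉ N R (Yf R U b) := by
      rw [mem_N]
      push Not
      exact ⟨fun h1 z hz h2 => h1 z h2 hz, fun h1 z hz h2 => h1 z h2 hz⟩
    rw [h0, mem_M]
    constructor
    · intro h1
      exact ⟨fun z hz => ((c1 z b).1 (h1 z hz)).1, ((c1 a b).1 (h1 a (hR a))).2⟩
    · rintro ⟨h1, h2⟩ z hz
      refine (c1 z b).2 ⟨h1 z hz, ?_⟩
      rintro rfl
      exact h2 ((mem_Up.1 (h1 a (hR a))).2 hz)
  have haMUp : ∀ a, a ∈ M R (Up R U) a := by
    intro a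
    refine mem_M.2 fun z hz => mem_Up.2 ⟨fun z' hz' => ?_, fun haz => hA a z haz hz⟩
    exact mem_N.2 ⟨z, f2 z' (hBz z' z hz'), hz⟩
  have s1 := swap c1 haUp
  have s2 := swap c2 fun z => haNU z z (hR z)
  have s3 := swap c3 haMUp
  -- the new feasible pair
  have hF' : Feas R (fun a => N R (M R B a), Up R U) := by
    refine ⟨fun a => N_mono (singleton_subset_iff.2 (ham a)),
      fun a => (N_mono (hmM a)).trans (hNM a), fun a y h1 h2 => (mem_Up.1 h2).2 h1⟩
  have hc := hopt _ hF'
  -- the costs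
  have t1 : ∑ b, h R (Yf R U b) = ∑ z, ((N R (U z)).card : ℤ) - ∑ a, ((Up R U a).card : ℤ) := by
    unfold h
    rw [sum_sub_distrib, s1, s2]
    ring
  have t2 : ∑ b, h R (N R (Yf R U b)) = ∑ a, ((Up R U a).card : ℤ) -
      ∑ a, ((M R (Up R U) a).card : ℤ) := by
    unfold h
    rw [sum_sub_distrib, s1, s3]
    ring
  have t3 : ∑ b, h R (N R (Yf R U b)) ≤ ∑ b, h R (Yf R U b) := sum_le_sum fun b _ => hG2 _
  have t4 : ∑ a, h R (U a) = ∑ z, ((N R (U z)).card : ℤ) - ∑ a, ((U a).card : ℤ) := by
    unfold h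
    rw [sum_sub_distrib]
  have t5 : ∑ z, h R (M R U z) ≤ ∑ a, ((Up R U a).card : ℤ) - ∑ z, ((M R U z).card : ℤ) := by
    unfold h
    rw [sum_sub_distrib]
    have : ∑ z, ((N R (M R U z)).card : ℤ) ≤ ∑ z, ((Up R U z).card : ℤ) :=
      sum_le_sum fun z _ => by exact_mod_cast card_le_card (hNM z)
    linarith
  rw [sum_sub_distrib, sum_sub_distrib] at hgap
  -- a family member that is not closed
  obtain ⟨a₀, ha₀⟩ : ∃ a, N R (M R B a) ≠ M R B a := by
    by_contra hcl
    push Not at hcl
    have hout : ∀ v, ∃ w, R v w ∧ w ≠ v := by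
      intro v
      by_contra hv
      push Not at hv
      have h1 : N R {v} = {v} := by
        ext w
        rw [mem_N1, mem_singleton]
        exact ⟨fun h2 => hv w h2, fun h2 => h2 ▸ hR v⟩
      have h2 := hCE v
      rw [h1, h1] at h2
      simp at h2
    choose nx hnx1 hnx2 using hout
    obtain ⟨v⟩ := ‹Nonempty V›
    obtain ⟨i, j, hij, he⟩ := Finite.exists_ne_map_eq_of_infinite fun m : ℕ => nx^[m] v
    wlog hlt : i < j generalizing i j
    · exact this j i hij.symm he.symm (lt_of_le_of_ne (not_lt.1 hlt) hij.symm)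
    set c := nx^[i] v with hcdef
    obtain ⟨p, hp⟩ : ∃ p, j = (p + 1) + i := ⟨j - i - 1, by omega⟩
    have h1 : nx^[p + 1] c = c := by
      have h2 : nx^[j] v = nx^[p + 1] c := by
        rw [hp, Function.iterate_add_apply]
      rw [← h2]
      exact he.symm
    have h2 : ∀ m : ℕ, nx^[m] c ∈ M R B c := by
      intro m
      induction m with
      | zero => exact ham c
      | succ m ih =>
        rw [Function.iterate_succ_apply', ← hcl c]
        exact mem_N.2 ⟨_, ih, hnx1 _⟩
    rw [Function.iterate_succ_apply'] at h1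
    have h3 : R (nx^[p] c) c := by
      have := hnx1 (nx^[p] c)
      rwa [h1] at this
    have h4 := f3 c _ h3 (hMU c (hmM c (h2 p)))
    exact hnx2 (nx^[p] c) (h1.trans h4.symm)
  have t6 : ∑ a, h R (N R (M R B a)) < ∑ a, h R (M R B a) :=
    sum_lt_sum (fun a _ => hG2 _) ⟨a₀, mem_univ _, hG1 _ ha₀⟩
  simp only [cost] at hc
  linarith

/-- **Seymour's second neighbourhood conjecture**, for closed adjacency relations -/
theorem snc_rel [Nonempty V] (R : V → V → Prop) (hR : ∀ a, R a a)
    (hA : ∀ a b, R a b → R b a → a = b) :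
    ∃ v, 2 * (N R {v}).card ≤ (N R (N R {v})).card + 1 := by
  by_contra hcon
  push Not at hcon
  set rel : Finset (V × V) → V → V → Prop := fun A a b => (a, b) ∈ A with hrel
  set P : Finset (V × V) → Prop := fun A => (∀ a, rel A a a) ∧ (∀ a b, rel A a b → R a b) ∧
    CE (rel A) with hP
  have hne : (univ.filter P).Nonempty := by
    refine ⟨univ.filter fun q => R q.1 q.2, mem_filter.2 ⟨mem_univ _, ?_, ?_, ?_⟩⟩
    · intro a
      simp [hrel, hR a]
    · intro a b hab
      simpa [hrel] using hab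
    · have : rel (univ.filter fun q => R q.1 q.2) = R := by
        funext a b
        simp [hrel]
      rw [this]
      exact hcon
  obtain ⟨A, hA1, hA2⟩ := exists_min_image _ Finset.card hne
  obtain ⟨p1, p2, p3⟩ := (mem_filter.1 hA1).2
  refine no_min p1 (fun a b h1 h2 => hA a b (p2 a b h1) (p2 b a h2)) p3 ?_
  intro R' q1 q2 q3 a b hab
  set A' : Finset (V × V) := univ.filter fun q => R' q.1 q.2 with hA'
  have hrA' : rel A' = R' := by
    funext a b
    simp [hrel, hA']
  have hsub : A' ⊆ A := by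
    intro q hq
    exact q2 q.1 q.2 (mem_filter.1 hq).2
  have hPA' : P A' := by
    simp only [hP]
    rw [hrA']
    exact ⟨q1, fun a b h1 => p2 a b (q2 a b h1), q3⟩
  have hcard := hA2 A' (mem_filter.2 ⟨mem_univ _, hPA'⟩)
  have heq : A' = A := eq_of_subset_of_card_le hsub hcard
  rw [← hrA', heq]
  exact hab

end Vale.Agent.P038.H124
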